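import Vale.Agent.P216.D773.LaDefs
import Vale.Agent.P216.H55D.Alg

/-!
# P216-D, block [RAT]: the linear algebra `LA1`, `LA3`
-/

open Finset Matrix

namespace Vale.Agent.P216.D55

open Vale.Agent.P216.D773 Vale.Agent.P216.H55D

/-- integral matrix from a rational one -/
theorem exists_intMat {a b : Type} [Fintype a] [Fintype b] (M : Matrix a b ℚ) :
    ∃ N : ℕ, 0 < N ∧ ∃ M' : Matrix a b ℤ, M'.map (Int.castRingHom ℚ) = (N : ℚ) • M := by
  obtain ⟨N, hN, g, hg⟩ := exists_den (ι := a × b) fun x => M x.1 x.2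
  refine ⟨N, hN, fun i j => g (i, j), ?_⟩
  ext i j
  exact hg (i, j)

theorem map_inj {a b : Type} (X Y : Matrix a b ℤ)
    (h : X.map (Int.castRingHom ℚ) = Y.map (Int.castRingHom ℚ)) : X = Y := by
  ext i j
  have := congrFun (congrFun h i) j
  simpa using this

/-- generalized inverse of a rational matrix -/
theorem exists_ginvMat {a b : Type} [Fintype a] [Fintype b] [DecidableEq a] [DecidableEq b]
    (M : Matrix a b ℚ) : ∃ G : Matrix b a ℚ, M * G * M = M := by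
  obtain ⟨g, hg⟩ := exists_ginv M.mulVecLin
  refine ⟨LinearMap.toMatrix' g, ?_⟩
  apply Matrix.toLin'.injective
  refine LinearMap.ext fun u => ?_
  have := hg u
  simpa [← Matrix.mulVec_mulVec] using this

theorem map_nsmul' {a b : Type} (k : Type) [Field k] (N : ℕ) (M : Matrix a b ℤ) :
    ((N : ℤ) • M).map (Int.castRingHom k) = (N : k) • M.map (Int.castRingHom k) := by
  ext i j
  simp

theorem natAbs_cast_zero {k : Type} [Field k] (z : ℤ) (h : (z : k) = 0) :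
    ((z.natAbs : ℕ) : k) = 0 := by
  rcases Int.natAbs_eq z with h3 | h3
  · have h4 := congrArg (Int.cast : ℤ → k) h3
    rw [h, Int.cast_natCast] at h4
    exact h4.symm
  · have h4 := congrArg (Int.cast : ℤ → k) h3
    rw [h, Int.cast_neg, Int.cast_natCast] at h4
    exact neg_eq_zero.1 h4.symm

theorem la1 : LA1 := by
  intro I₀ I₁ I₂ _ _ _ _ _ _ P Q E h
  set PQ := P.map (Int.castRingHom ℚ) with hPQ
  set QQ := Q.map (Int.castRingHom ℚ) with hQQ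
  set EQ := E.map (Int.castRingHom ℚ) with hEQ
  have h' : ∀ b : I₁ → ℚ, QQ *ᵥ b = 0 → ∃ a : I₀ → ℚ, EQ *ᵥ b = PQ *ᵥ a := h
  obtain ⟨G, hG⟩ := exists_ginvMat PQ
  obtain ⟨H, hH⟩ := exists_ginvMat QQ
  -- `E (1 - H Q) = P G E (1 - H Q)`
  have key : EQ = PQ * (G * EQ * (1 - H * QQ)) + EQ * H * QQ := by
    have h1 : EQ * (1 - H * QQ) = PQ * (G * EQ * (1 - H * QQ)) := by
      apply Matrix.toLin'.injective
      refine LinearMap.ext fun u => ?_
      have h2 : QQ *ᵥ ((1 - H * QQ) *ᵥ u) = 0 := by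
        rw [Matrix.mulVec_mulVec, Matrix.mul_sub, Matrix.mul_one, ← Matrix.mul_assoc, hH, sub_self,
          Matrix.zero_mulVec]
      obtain ⟨a, ha⟩ := h' _ h2
      rw [Matrix.toLin'_apply, Matrix.toLin'_apply, ← Matrix.mulVec_mulVec, ha,
        ← Matrix.mulVec_mulVec, ← Matrix.mulVec_mulVec, ← Matrix.mulVec_mulVec, ha,
        Matrix.mulVec_mulVec, Matrix.mulVec_mulVec, hG]
    rw [← h1, Matrix.mul_sub, Matrix.mul_one, Matrix.mul_assoc, sub_add_cancel]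
  obtain ⟨N₁, hN₁, S, hS⟩ := exists_intMat (G * EQ * (1 - H * QQ))
  obtain ⟨N₂, hN₂, T, hT⟩ := exists_intMat (EQ * H)
  have k1 : ((N₁ * N₂ : ℕ) : ℤ) • E = P * ((N₂ : ℤ) • S) + ((N₁ : ℤ) • T) * Q := by
    apply map_inj
    rw [Matrix.map_add _ (map_add _), Matrix.map_mul, Matrix.map_mul, map_nsmul', map_nsmul',
      map_nsmul', hS, hT, ← hPQ, ← hQQ, ← hEQ]
    conv_lhs => rw [key]
    rw [Nat.cast_mul, smul_add, smul_smul, smul_smul, Matrix.mul_smul, Matrix.smul_mul,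
      mul_comm (N₂ : ℚ)]
  refine ⟨N₁ * N₂, (Nat.mul_pos hN₁ hN₂).ne', fun k _ hk b hb => ?_⟩
  have hb' : Q.map (Int.castRingHom k) *ᵥ b = 0 := hb
  have e1 := congrArg (fun X : Matrix I₁ I₁ ℤ => X.map (Int.castRingHom k) *ᵥ b) k1
  beta_reduce at e1
  rw [Matrix.map_add _ (map_add _), Matrix.map_mul, Matrix.map_mul, map_nsmul', Matrix.add_mulVec,
    ← Matrix.mulVec_mulVec, ← Matrix.mulVec_mulVec, hb', Matrix.mulVec_zero, add_zero,
    Matrix.smul_mulVec] at e1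
  refine ⟨((N₁ * N₂ : ℕ) : k)⁻¹ • (((N₂ : ℤ) • S).map (Int.castRingHom k) *ᵥ b), ?_⟩
  change E.map (Int.castRingHom k) *ᵥ b = P.map (Int.castRingHom k) *ᵥ _
  rw [Matrix.mulVec_smul, ← e1, smul_smul, inv_mul_cancel₀ hk, one_smul]

theorem la3 : LA3 := by
  intro I₀ I₁ _ _ _ _ P w h
  set PQ := P.map (Int.castRingHom ℚ) with hPQ
  set wQ : I₁ → ℚ := fun i => (w i : ℚ) with hwQ
  have h' : ¬ ∃ a : I₀ → ℚ, wQ = PQ *ᵥ a := h
  obtain ⟨G, hG⟩ := exists_ginvMat PQ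
  have h1 : wQ - PQ *ᵥ (G *ᵥ wQ) ≠ 0 := fun h0 => h' ⟨G *ᵥ wQ, sub_eq_zero.1 h0⟩
  obtain ⟨i, hi⟩ := Function.ne_iff.1 h1
  obtain ⟨N, hN, S, hS⟩ := exists_intMat (1 - PQ * G)
  have k1 : S * P = 0 := by
    apply map_inj
    rw [Matrix.map_mul, hS, ← hPQ, Matrix.smul_mul, Matrix.sub_mul, Matrix.one_mul, hG, sub_self,
      smul_zero, map_zer]
  have k2 : (S *ᵥ w) i ≠ 0 := by
    intro h0
    have e1 : (((S *ᵥ w) i : ℤ) : ℚ) = (N : ℚ) * (wQ - PQ *ᵥ (G *ᵥ wQ)) i := by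
      have e2 : (((S *ᵥ w) i : ℤ) : ℚ) = (S.map (Int.castRingHom ℚ) *ᵥ wQ) i := by
        simp [Matrix.mulVec, dotProduct, hwQ]
      rw [e2, hS, Matrix.smul_mulVec, Matrix.sub_mulVec, Matrix.one_mulVec, Matrix.mulVec_mulVec]
      rfl
    rw [h0, Int.cast_zero] at e1
    rcases mul_eq_zero.1 e1.symm with h2 | h2
    · exact hN.ne' (by exact_mod_cast h2)
    · exact hi h2
  refine ⟨((S *ᵥ w) i).natAbs, Int.natAbs_ne_zero.2 k2, fun k _ hk => ?_⟩
  rintro ⟨a, ha⟩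
  apply hk
  have ha' : (fun i => (w i : k)) = P.map (Int.castRingHom k) *ᵥ a := ha
  have e2 : (((S *ᵥ w) i : ℤ) : k) = (S.map (Int.castRingHom k) *ᵥ fun i => (w i : k)) i := by
    simp [Matrix.mulVec, dotProduct]
  have e3 : (((S *ᵥ w) i : ℤ) : k) = 0 := by
    rw [e2, ha', Matrix.mulVec_mulVec, ← Matrix.map_mul, k1, map_zer, Matrix.zero_mulVec,
      Pi.zero_apply]
  exact natAbs_cast_zero _ e3

end Vale.Agent.P216.D55
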